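import Vale.Agent.P129BC1.Faith
import Vale.Agent.P129B.Erd

/-!
# In the universe of sets, `HasErdos` is the usual partition relation
-/

set_option linter.all false

namespace Vale.Agent.P129BL

open Vale.Agent.P323.Z Vale.Agent.P129Z.S Vale.Agent.P129B.S Vale.Agent.P129B.C1 Cardinal

universe u

theorem of_fn {j A B : ZFSet.{u}} (hj : IsFunction Mem j A B) :
    ∃ f : A → B, ∀ x y, PairMem Mem x y j ↔ ∃ a : A, a.1 = x ∧ (f a).1 = y := by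
  have H : ∀ x y, PairMem Mem x y j → x ∈ A ∧ y ∈ B := fun x y h => by
    obtain ⟨_, _, h1, h2, h3⟩ := hj.pairs _ (pairMem_iff.1 h)
    obtain ⟨rfl, rfl⟩ := ZFSet.pair_inj.1 (isOPair_iff.1 h3)
    exact ⟨h1, h2⟩
  choose f hf hu using fun a : A => hj.value a.1 a.2
  refine ⟨fun a => ⟨f a, (H _ _ (hf a)).2⟩, fun x y => ⟨fun h => ⟨⟨x, (H _ _ h).1⟩, rfl, ?_⟩, ?_⟩⟩
  · exact (hu _ y h).symm
  · rintro ⟨a, rfl, rfl⟩
    exact hf a

theorem fn_of {A B : ZFSet.{u}} (f : A → B) : ∃ j, IsFunction Mem j A B ∧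
    ∀ x y, PairMem Mem x y j ↔ ∃ a : A, a.1 = x ∧ (f a).1 = y := by
  have hm : ∀ p, p ∈ (A.prod B).sep (fun p => ∃ a : A, ZFSet.pair a.1 (f a).1 = p) ↔
      ∃ a : A, ZFSet.pair a.1 (f a).1 = p := fun p => by
    rw [ZFSet.mem_sep]
    refine and_iff_right_of_imp ?_
    rintro ⟨a, rfl⟩
    exact ZFSet.mem_prod.2 ⟨_, a.2, _, (f a).2, rfl⟩
  have h2 := fun x y => pairMem_iff.trans ((hm (ZFSet.pair x y)).trans
    (exists_congr fun a => ZFSet.pair_inj))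
  refine ⟨_, ⟨fun p hp => ?_, fun x hx => ⟨_, (h2 _ _).2 ⟨⟨x, hx⟩, rfl, rfl⟩, fun y hy => ?_⟩⟩, h2⟩
  · obtain ⟨a, rfl⟩ := (hm p).1 hp
    exact ⟨_, _, a.2, (f a).2, isOPair_iff.2 rfl⟩
  · obtain ⟨a, rfl, rfl⟩ := (h2 _ _).1 hy
    rfl

theorem bij_iff {A B : ZFSet.{u}} :
    (∃ f, IsInjection Mem f A B ∧ IsSurjection Mem f A B) ↔ Nonempty (A ≃ B) := by
  constructor
  · rintro ⟨j, ⟨h1, h2⟩, -, h3⟩
    obtain ⟨f, hf⟩ := of_fn h1
    refine ⟨Equiv.ofBijective f ⟨fun a b e => Subtype.ext (h2 _ _ _ ((hf _ _).2 ⟨a, rfl, rfl⟩)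
      ((hf _ _).2 ⟨b, rfl, congrArg Subtype.val e.symm⟩)), fun b => ?_⟩⟩
    obtain ⟨x, -, h⟩ := h3 b.1 b.2
    obtain ⟨a, -, e⟩ := (hf _ _).1 h
    exact ⟨a, Subtype.ext e⟩
  · rintro ⟨e⟩
    obtain ⟨j, h1, h2⟩ := fn_of e
    refine ⟨j, ⟨h1, fun x y z a b => ?_⟩, h1, fun y hy =>
      ⟨_, (e.symm ⟨y, hy⟩).2, (h2 _ _).2 ⟨_, rfl, by simp⟩⟩⟩
    obtain ⟨a, rfl, rfl⟩ := (h2 _ _).1 a
    obtain ⟨b, rfl, c⟩ := (h2 _ _).1 b
    exact congrArg Subtype.val (e.injective (Subtype.ext c.symm))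

theorem finite_iff_card {A : ZFSet.{u}} : Finite A ↔ A.card < ℵ₀ := by
  rw [← Cardinal.lift_lt.{u, u + 1}, ← ZFSet.cardinalMk_coe_sort, lift_aleph0, lt_aleph0_iff_finite]

theorem equiv_iff_card {A B : ZFSet.{u}} : Nonempty (A ≃ B) ↔ A.card = B.card := by
  rw [← Cardinal.lift_inj.{u, u + 1}, ← ZFSet.cardinalMk_coe_sort, ← ZFSet.cardinalMk_coe_sort,
    Cardinal.eq]

theorem isFinite_iff {F : ZFSet.{u}} : IsFinite Mem F ↔ Finite F := by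
  constructor
  · rintro ⟨w, n, j, hw, hn, h1, h2⟩
    obtain ⟨a, ha, rfl⟩ := Ordinal.mem_toZFSet_iff.1 (hw.2 _ isOmega_omega0.1 n hn)
    obtain ⟨f, hf⟩ := of_fn h1
    have : Finite a.toZFSet := by
      rw [finite_iff_card, Ordinal.card_toZFSet]
      exact Ordinal.card_lt_aleph0.2 ha
    refine Finite.of_surjective f fun b => ?_
    obtain ⟨x, -, h⟩ := h2 b.1 b.2
    obtain ⟨a, -, e⟩ := (hf _ _).1 h
    exact ⟨a, Subtype.ext e⟩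
  · intro h
    obtain ⟨n, hn⟩ := lt_aleph0.1 (finite_iff_card.1 h)
    obtain ⟨j, -, hj⟩ := bij_iff.2 (equiv_iff_card.2 (show (Ordinal.toZFSet n).card = F.card by
      rw [Ordinal.card_toZFSet, hn, Ordinal.card_nat]))
    exact ⟨_, _, j, isOmega_omega0,
      Ordinal.mem_toZFSet_iff.2 ⟨n, Ordinal.natCast_lt_omega0 n, rfl⟩, hj⟩

/-- images of sets of indices -/
theorem exists_im {K : ZFSet.{u}} {ι : Type u} {e : ι → ZFSet.{u}} (he : Function.Injective e)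
    (hK : ∀ x, x ∈ K ↔ ∃ a, e a = x) : ∃ im : Set ι → ZFSet.{u},
      (∀ S x, x ∈ im S ↔ ∃ a ∈ S, e a = x) ∧ (∀ S : Set ι, Nonempty (S ≃ im S)) ∧
      ∀ A, Sub Mem A K → im {a | e a ∈ A} = A := by
  have h : ∀ (S : Set ι) x, x ∈ K.sep (fun x => ∃ a ∈ S, e a = x) ↔ ∃ a ∈ S, e a = x := by
    intro S x
    rw [ZFSet.mem_sep]
    refine and_iff_right_of_imp ?_
    rintro ⟨a, -, rfl⟩
    exact (hK _).2 ⟨a, rfl⟩
  refine ⟨_, h, fun S => ⟨Equiv.ofBijective (fun a => ⟨e a.1, (h _ _).2 ⟨a.1, a.2, rfl⟩⟩)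
    ⟨fun a b c => Subtype.ext (he (congrArg Subtype.val c)), fun b => ?_⟩⟩,
    fun A hA => ZFSet.ext fun x => (h _ x).trans ⟨?_, fun hx => ?_⟩⟩
  · obtain ⟨a, ha, c⟩ := (h _ _).1 b.2
    exact ⟨⟨a, ha⟩, Subtype.ext c⟩
  · rintro ⟨a, ha, rfl⟩
    exact ha
  · obtain ⟨a, rfl⟩ := (hK x).1 (hA x hx)
    exact ⟨a, hx, rfl⟩

theorem arrow_of_hasErdos (h : HasErdos Mem.{u}) : ∃ κ : Cardinal.{u}, ErdosArrow κ := by
  obtain ⟨K, h⟩ := h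
  obtain ⟨e, he, hK⟩ := exists_enum K rfl
  obtain ⟨im, h1, h2, h3⟩ := exists_im he hK
  have inj : ∀ S T, im S = im T → S ⊆ T := fun S T c a ha => by
    obtain ⟨b, hb, d⟩ := (h1 T _).1 (c ▸ (h1 S _).2 ⟨a, ha, rfl⟩)
    exact he d ▸ hb
  refine ⟨K.card, fun c => ?_⟩
  obtain ⟨H, a1, a2, a3⟩ :=
    h (K.powerset.sep fun s => ∃ t : Finset K.card.out, im t = s ∧ c t = true)
  have m : ∀ t : Finset K.card.out, im t ∈ K.powerset.sep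
      (fun s => ∃ t : Finset K.card.out, im t = s ∧ c t = true) ↔ c t = true := fun t => by
    rw [ZFSet.mem_sep, ZFSet.mem_powerset]
    refine ⟨fun ⟨_, s, b1, b2⟩ => ?_, fun b => ⟨fun x hx => ?_, t, rfl, b⟩⟩
    · exact Finset.coe_injective ((inj _ _ b1).antisymm (inj _ _ b1.symm)) ▸ b2
    · obtain ⟨a, -, rfl⟩ := (h1 _ _).1 hx
      exact (hK _).2 ⟨a, rfl⟩
  have sb : ∀ S, S ⊆ {a | e a ∈ H} → Sub Mem (im S) H := fun S hS x hx => by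
    obtain ⟨a, ha, rfl⟩ := (h1 _ _).1 hx
    exact hS ha
  refine ⟨{a | e a ∈ H}, fun b => a2 (isFinite_iff.2 ?_), fun s t hs ht b => ?_⟩
  · obtain ⟨q⟩ := h2 {a | e a ∈ H}
    rw [h3 H a1] at q
    exact (q.finite_iff).1 b
  · obtain ⟨q⟩ := h2 s
    obtain ⟨r⟩ := h2 t
    have := a3 _ _ (sb s hs) (sb t ht) (isFinite_iff.2 (q.finite_iff.1 s.finite_toSet))
      (bij_iff.2 ⟨q.symm.trans ((Finset.equivOfCardEq b).trans r)⟩)
    exact Bool.eq_iff_iff.2 ((m s).symm.trans (this.trans (m t)))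

theorem hasErdos_of_arrow {κ : Cardinal.{u}} (h : ErdosArrow κ) : HasErdos Mem.{u} := by
  classical
  obtain ⟨K, hκ⟩ : ∃ K : ZFSet.{u}, K.card = κ :=
    ⟨κ.ord.toZFSet, by rw [Ordinal.card_toZFSet, card_ord]⟩
  obtain ⟨e, he, hK⟩ := exists_enum K hκ
  obtain ⟨im, h1, h2, h3⟩ := exists_im he hK
  refine ⟨K, fun C => ?_⟩
  obtain ⟨H, a1, a2⟩ := h fun t => decide (im t ∈ C)
  have sb : Sub Mem (im H) K := fun x hx => by
    obtain ⟨a, -, rfl⟩ := (h1 _ _).1 hx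
    exact (hK _).2 ⟨a, rfl⟩
  have key : ∀ s, Sub Mem s (im H) → Finite s → ∃ t : Finset κ.out, im t = s ∧ (t : Set _) ⊆ H := by
    intro s hs b
    have c := h3 s fun x hx => sb x (hs x hx)
    obtain ⟨q⟩ := h2 {a | e a ∈ s}
    rw [c] at q
    obtain ⟨t, ht⟩ := Set.Finite.exists_finset_coe (s := {a | e a ∈ s}) (q.finite_iff.2 b)
    refine ⟨t, ht ▸ c, fun a ha => ?_⟩
    rw [ht] at ha
    obtain ⟨d, hd, k⟩ := (h1 _ _).1 (hs _ ha)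
    exact he k ▸ hd
  refine ⟨im H, sb, fun b => a1 ?_, fun s t hs ht b c => ?_⟩
  · obtain ⟨q⟩ := h2 H
    exact q.finite_iff.2 (isFinite_iff.1 b)
  · obtain ⟨p⟩ := bij_iff.1 c
    obtain ⟨s, rfl, hs'⟩ := key s hs (isFinite_iff.1 b)
    obtain ⟨t, rfl, ht'⟩ := key t ht (p.finite_iff.1 (isFinite_iff.1 b))
    obtain ⟨q⟩ := h2 s
    obtain ⟨r⟩ := h2 t
    exact decide_eq_decide.1 (a2 s t hs' ht' (Finset.card_eq_of_equiv (q.trans (p.trans r.symm))))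

/-- In the universe of sets, `HasErdos` says that some cardinal satisfies the partition relation. -/
theorem faithful_erdos : HasErdos (fun x y : ZFSet.{u} => x ∈ (y : Set ZFSet.{u})) ↔
    ∃ κ : Cardinal.{u}, ErdosArrow κ :=
  ⟨arrow_of_hasErdos, fun ⟨_, h⟩ => hasErdos_of_arrow h⟩

end Vale.Agent.P129BL
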