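import Vale.Agent.P129BL.Meas
import Vale.Agent.P129B.Meas
import Vale.Agent.P129BP.Rep0

/-!
# Measurable cardinals: the sentence, countable models, internal ultrafilters
-/

set_option linter.all false

namespace Vale.Agent.P129BL

open Vale.Agent.P323.Z Vale.Agent.P323.Z.Fml Vale.Agent.P129Z.S Vale.Agent.P129B
  Vale.Agent.P129B.S Vale.Agent.P129BP

universe u v

section fml

variable {M : Type*} (E : M → M → Prop) {n : ℕ}

/-- smaller cardinality -/
def cardF (a b : Fin n) : Fml n :=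
  and (ex (injectionF la (up a) (up b))) (neg (ex (injectionF la (up b) (up a))))

theorem sat_cardF (a b : Fin n) (v : Fin n → M) : (cardF a b).Sat E v ↔ CardLt E (v a) (v b) := by
  simp [cardF, CardLt]

/-- measures -/
def msF (K U : Fin n) : Fml n :=
  and (all (imp (omegaF la) (cardF la (up K))))
  (and (all (imp (mem la (up U)) (subF la (up K))))
  (and (mem K U)
  (and (all (imp (mem la (up U)) (ex (mem la (up la)))))
  (and (all (all (imp (mem (up la) (up (up U))) (imp (subF (up la) la) (imp (subF la (up (up K)))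
    (mem la (up (up U))))))))
  (and (all (all (all (imp (mem (up (up la)) (up (up (up U)))) (imp (mem (up la) (up (up (up U))))
    (imp (all (iff (mem la (up la)) (and (mem la (up (up (up la)))) (mem la (up (up la))))))
      (mem la (up (up (up U))))))))))
  (and (all (all (imp (subF (up la) (up (up K))) (imp (all (iff (mem la (up la))
    (and (mem la (up (up (up K)))) (neg (mem la (up (up la)))))))
      (or (mem (up la) (up (up U))) (mem la (up (up U))))))))
  (and (all (all (imp (all (iff (mem la (up (up la))) (eq la (up la))))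
    (neg (mem (up la) (up (up U)))))))
  (all (all (imp (subF (up la) (up (up U))) (imp (cardF (up la) (up (up K)))
    (imp (all (iff (mem la (up la)) (and (mem la (up (up (up K))))
      (all (imp (mem la (up (up (up la)))) (mem (up la) la)))))) (mem la (up (up U)))))))))))))))

theorem sat_msF (K U : Fin n) (v : Fin n → M) :
    (msF K U).Sat E v ↔ IsMeasure E (v K) (v U) := by
  simp only [msF, sat_and, sat_all, sat_ex, sat_imp, sat_iff, sat_or, sat_neg,
    sat_mem, sat_eq, sat_subF, sat_omegaF, sat_cardF, Fin.snoc_castSucc, Fin.snoc_last]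
  exact ⟨fun ⟨a, b, c, d, e, f, g, h, i⟩ => ⟨a, b, c, d, e, f, g, h, i⟩,
    fun ⟨a, b, c, d, e, f, g, h, i⟩ => ⟨a, b, c, d, e, f, g, h, i⟩⟩

theorem sat_hasF (v : Fin n → M) :
    (ex (ex (msF (up la) la))).Sat E v ↔ HasMeasurable E := by
  simp only [HasMeasurable, sat_ex, sat_msF, Fin.snoc_castSucc, Fin.snoc_last]

end fml

/-- The existence of a measurable cardinal is expressed by a sentence. -/
theorem exists_sentence_meas : ∃ φ : LSet.BoundedFormula Empty 0,
    ∀ (M : Type u) (E : M → M → Prop), Sat E φ Fin.elim0 ↔ HasMeasurable E :=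
  ⟨toBF (ex (ex (msF (up la) la))), fun _ E => (sat_toBF E _ _).trans (sat_hasF E _)⟩

theorem Elem.hasMeasurable {N : Type u} {M : Type v} {E' : N → N → Prop} {E : M → M → Prop}
    {j : N → M} (h : Elem E' E j) (a : HasMeasurable E) : HasMeasurable E' :=
  (sat_hasF E' Fin.elim0).1 ((h.sentence _ _ Fin.elim0).2 ((sat_hasF E _).2 a))

variable {N : Type v} [ZM N]

theorem inj_iff {α β : Type*} [Coded N α] [Coded N β] [Tot N α] [Tot N β] {A B : N}
    (hA : IsCar N α A) (hB : IsCar N β B) :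
    (∃ j, IsInjection ZM.E j A B) ↔ ∃ f : α → β, DefF N f ∧ Function.Injective f := by
  constructor
  · rintro ⟨s, h1, h2⟩
    obtain ⟨f, a, b⟩ := exists_fun_of_fun hA hB h1
    refine ⟨f, DefF.ofIntl f, fun x y e => code_inj inferInstance inferInstance
      (h2 _ _ (code N (f x)) (pairMem_iff.2 ?_) (pairMem_iff.2 ?_))⟩
    · exact b x ▸ fun_op_ap h1 (hA.code_mem x)
    · exact e ▸ b y ▸ fun_op_ap h1 (hA.code_mem y)
  · rintro ⟨f, a, b⟩
    refine ⟨gr N f, isFunction_gr a hA hB, fun x y z h1 h2 => ?_⟩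
    obtain ⟨c, -, h1⟩ := (mem_gr a).1 (pairMem_iff.1 h1)
    obtain ⟨d, -, h2⟩ := (mem_gr a).1 (pairMem_iff.1 h2)
    obtain ⟨rfl, rfl⟩ := op_inj.1 h1
    obtain ⟨rfl, h3⟩ := op_inj.1 h2
    rw [b (code_inj inferInstance inferInstance h3)]

/-- A measure gives an internal countably complete free ultrafilter. -/
theorem iult_of_measure {k U : N} (h : IsMeasure ZM.E k U) :
    IUlt N {A : Set (El k) | Intl N A ∧ code N A ∈ U} := by
  have sb : ∀ A : Set (El k), Intl N A → P129Z.S.Sub ZM.E (code N A) k :=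
    fun A hA x hx => ((mem_code_el hA).1 hx).1
  refine ⟨intl_setOf (by fun_prop), fun A a B b c => ⟨b, h.up _ _ a.2
    ((sub_code_iff a.1 b).2 c) (sb B b)⟩, fun A a B b => ?_, fun A hA a => ?_, fun A a => ?_,
    fun a => ?_, fun x a => h.free _ x.1 (fun y => ?_) a.2⟩
  · have := a.1
    have := b.1
    refine ⟨inferInstance, h.inter _ _ _ a.2 b.2 fun x => ?_⟩
    exact (mem_code_el inferInstance).trans ⟨fun ⟨c, d⟩ => ⟨(mem_code_el a.1).2 ⟨c, d.1⟩,
      (mem_code_el b.1).2 ⟨c, d.2⟩⟩, fun ⟨c, d⟩ => ⟨sb A a.1 x c, ((mem_code_el a.1).1 c).2,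
        ((mem_code_el b.1).1 d).2⟩⟩
  · have hI : Intl N (⋂ n, A n) := by
      rw [← Set.setOf_mem_eq (s := ⋂ n, A n)]
      simp only [Set.mem_iInter]
      exact intl_setOfT (by fun_prop)
    have hF := intl_range (N := N) A
    have e : ∀ x, x ∈ code N (Set.range A) ↔ ∃ n, code N (A n) = x := fun x =>
      (mem_code_set hF).trans Set.exists_range_iff
    obtain ⟨g, g1, g2⟩ := exists_intl_choiceT (N := N) (α := El (code N (Set.range A)))
      (R := fun x n => code N (A n) = x.1) (by fun_prop) fun x => (e _).1 x.2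
    have g3 : Function.Injective g := fun x y c => Subtype.ext (by rw [← g2 x, ← g2 y, c])
    obtain ⟨u1, u2⟩ := h.uncountable _ isOmega_omega
    obtain ⟨i, i1, i2⟩ := (inj_iff isCar_omega (isCar_el k)).1 u1
    refine ⟨hI, h.complete (code N (Set.range A)) _ (fun x hx => ?_)
      ⟨(inj_iff (isCar_el _) (isCar_el k)).2 ⟨fun x => i (g x), by fun_prop, i2.comp g3⟩,
        fun c => ?_⟩ fun x => ?_⟩
    · obtain ⟨n, rfl⟩ := (e x).1 hx
      exact (a n).2
    · obtain ⟨f, f1, f2⟩ := (inj_iff (isCar_el k) (isCar_el _)).1 c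
      exact u2 ((inj_iff (isCar_el k) isCar_omega).2 ⟨fun x => g (f x), by fun_prop, g3.comp f2⟩)
    · refine (mem_code_el hI).trans ⟨fun ⟨c, d⟩ => ⟨c, fun B hB => ?_⟩, fun ⟨c, d⟩ =>
        ⟨c, Set.mem_iInter.2 fun n => ((mem_code_el (a n).1).1 (d _ ((e _).2 ⟨n, rfl⟩))).2⟩⟩
      obtain ⟨n, rfl⟩ := (e B).1 hB
      exact (mem_code_el (a n).1).2 ⟨c, Set.mem_iInter.1 d n⟩
  · have b : Intl N Aᶜ := intl_setOfT (P := fun x => ¬ x ∈ A) (by fun_prop)
    refine (h.ultra _ _ (sb A a) fun x => ?_).imp (fun c => ⟨a, c⟩) fun c => ⟨b, c⟩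
    exact (mem_code_el b).trans ⟨fun ⟨c, d⟩ => ⟨c, fun e => d ((mem_code_el a).1 e).2⟩,
      fun ⟨c, d⟩ => ⟨c, fun e => d ((mem_code_el a).2 ⟨c, e⟩)⟩⟩
  · obtain ⟨y, b⟩ := h.proper _ a.2
    exact ((mem_code_el a.1).1 b).2
  · exact (mem_code_el a.1).trans ⟨fun ⟨c, d⟩ => congrArg Subtype.val d,
      fun c => ⟨c ▸ x.2, Subtype.ext c⟩⟩

/-- From any model with a measurable cardinal to a countable one with an internal ultrafilter. -/
theorem exists_countable_iult' {M : Type v} {E : M → M → Prop} (h : IsZFCModel E)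
    (a : HasMeasurable E) :
    ∃ (N : Type u) (_ : ZM N), Countable N ∧ ∃ (k : N) (U : Set (Set (El k))), IUlt N U := by
  obtain ⟨N, _, j, h1, h2⟩ := exists_countable.{u} h.1 h.2
  obtain ⟨k, U, hk⟩ := h2.hasMeasurable a
  exact ⟨N, _, h1, k, _, iult_of_measure hk⟩

end Vale.Agent.P129BL
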