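import Vale.Agent.P129BL.Enum
import Vale.Agent.P129B.Real
import Vale.Agent.P129BZ.Scal

/-!
# Countable dense families of finite sequences of scalars
-/

set_option linter.unusedSectionVars false

namespace Vale.Agent.P129B

universe v

variable {N : Type v} [ZM N] {α : Type*} [Coded N α]
  {R : Type*} [Field R] [LinearOrder R] [IsStrictOrderedRing R] [Coded N R] [RF N R]

variable (R) in
/-- an enumeration of the rational numbers -/
noncomputable def dq (t : NN N) : R := (rc R t.p1 - rc R t.p2.p1) / (rc R t.p2.p2 + 1)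

@[fun_prop] theorem DefF.dq {f : α → NN N} (hf : DefF N f) : DefF N (fun a => dq R (f a)) := by
  unfold P129B.dq; fun_prop

variable (N) in
theorem exists_dq (x : R) {η : R} (hη : 0 < η) :
    ∃ t : NN N, |x - dq R t| ≤ η ∧ (x = 0 → dq R t = 0) := by
  rcases eq_or_ne x 0 with rfl | h0
  · refine ⟨NN.pr 0 (NN.pr 0 0), ?_⟩
    simp [dq, hη.le]
  obtain ⟨c, hc⟩ := exists_inv_rc_lt N hη
  have h1 := rc_succ_pos (R := R) c
  obtain ⟨b, hb⟩ := exists_rc_gt N (-(x * (rc R c + 1)))
  obtain ⟨a, h2, h3⟩ := exists_floor N (x := x * (rc R c + 1) + rc R b) (by linarith)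
  refine ⟨NN.pr a (NN.pr b c), ?_, fun h => absurd h h0⟩
  have e : x - (rc R a - rc R b) / (rc R c + 1) =
      (x * (rc R c + 1) + rc R b - rc R a) * (rc R c + 1)⁻¹ := by
    field_simp
    ring
  simp only [dq, NN.p1_pr, NN.p2_pr]
  rw [e, abs_of_nonneg (mul_nonneg (by linarith) (inv_nonneg.2 h1.le))]
  exact (mul_le_of_le_one_left (inv_nonneg.2 h1.le) (by linarith)).trans (hc c le_rfl).le

variable {K : Type*} [Field K] [Algebra R K] [Nm K R] [KA R K] [Coded N K] [KF N R K]

variable (K) in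
/-- an enumeration of the rational scalars -/
noncomputable def dk (t : NN N) : K :=
  algebraMap R K (dq R t.p1) + algebraMap R K (dq R t.p2) * KA.I

@[fun_prop] theorem DefF.dk {f : α → NN N} (hf : DefF N f) : DefF N (fun a => dk K (f a)) := by
  unfold P129B.dk; fun_prop

variable (N) in
theorem exists_dk (x : K) {η : R} (hη : 0 < η) :
    ∃ t : NN N, nm (x - dk K t) ≤ η ∧ (x = 0 → dk K t = 0) := by
  obtain ⟨a, h1, h2⟩ := exists_dq N (KA.re x) (half_pos hη)
  obtain ⟨b, h3, h4⟩ := exists_dq N (KA.im x) (half_pos hη)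
  refine ⟨NN.pr a b, ?_, fun h => ?_⟩
  · have e : x - dk K (NN.pr a b) = algebraMap R K (KA.re x - dq R a) +
        algebraMap R K (KA.im x - dq R b) * KA.I := by
      conv_lhs => rw [← KA.re_add_im x]
      simp only [dk, NN.p1_pr, NN.p2_pr, map_sub]
      ring
    rw [e]
    refine (nm_add_le _ _).trans ?_
    rw [KA.nm_mul, KA.nm_ofR, KA.nm_ofR]
    linarith [mul_le_of_le_one_right (abs_nonneg (KA.im x - dq R b)) (KA.nm_I_le (K := K))]
  · simp only [dk, NN.p1_pr, NN.p2_pr]
    rw [h2 (by rw [h, map_zero]), h4 (by rw [h, map_zero]), map_zero, zero_mul, add_zero]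

variable (R) in
/-- an enumeration of the finite rational sequences -/
noncomputable def qqR (t i : NN N) : R := dq R (t.en i)

variable (K) in
/-- an enumeration of the finite sequences of rational scalars -/
noncomputable def qqK (t i : NN N) : K := dk K (t.en i)

@[fun_prop] theorem DefF.qqR {f g : α → NN N} (hf : DefF N f) (hg : DefF N g) :
    DefF N (fun a => qqR R (f a) (g a)) := by
  unfold P129B.qqR; fun_prop

@[fun_prop] theorem DefF.qqK {f g : α → NN N} (hf : DefF N f) (hg : DefF N g) :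
    DefF N (fun a => qqK K (f a) (g a)) := by
  unfold P129B.qqK; fun_prop

instance intl_qqR : Intl N (qqR R : NN N → NN N → R) := (DefF.lam (qqR R) (by fun_prop)).toIntl

instance intl_qqK : Intl N (qqK K : NN N → NN N → K) := (DefF.lam (qqK K) (by fun_prop)).toIntl

theorem qqR_dense {c : NN N → R} (hc : DefF N c) (n : NN N) {η : R} (hη : 0 < η) :
    ∃ t : NN N, ∀ i, i < n → |c i - qqR R t i| ≤ η ∧ (c i = 0 → qqR R t i = 0) :=
  NN.exists_en_of (R := fun i j => |c i - dq R j| ≤ η ∧ (c i = 0 → dq R j = 0)) (by fun_prop) n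
    fun i _ => exists_dq N (c i) hη

theorem qqK_dense {c : NN N → K} (hc : DefF N c) (n : NN N) {η : R} (hη : 0 < η) :
    ∃ t : NN N, ∀ i, i < n → nm (c i - qqK K t i) ≤ η ∧ (c i = 0 → qqK K t i = 0) :=
  NN.exists_en_of (R := fun i j => nm (c i - dk K j) ≤ η ∧ (c i = 0 → dk K j = 0)) (by fun_prop) n
    fun i _ => exists_dk N (c i) hη

variable (N R) in
/-- **Density of the rational sequences.** -/
theorem exists_qqR : ∃ q : NN N → NN N → R, Intl N q ∧ ∀ (n : NN N) (c : NN N → R) (η : R),
    Intl N c → 0 < η → ∃ t, ∀ i, i < n → |c i - q t i| ≤ η ∧ (c i = 0 → q t i = 0) :=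
  ⟨qqR R, inferInstance, fun n c _ _ hη => qqR_dense (DefF.ofIntl c) n hη⟩

variable (N R K) in
/-- **Density of the sequences of rational scalars.** -/
theorem exists_qqK : ∃ q : NN N → NN N → K, Intl N q ∧ ∀ (n : NN N) (c : NN N → K) (η : R),
    Intl N c → 0 < η → ∃ t, ∀ i, i < n → nm (c i - q t i) ≤ η ∧ (c i = 0 → q t i = 0) :=
  ⟨qqK K, inferInstance, fun n c _ _ hη => qqK_dense (DefF.ofIntl c) n hη⟩

/-! ### Variants which vanish from the length on -/

variable (R) in
/-- finitely supported rational sequences -/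
noncomputable def qzR (t i : NN N) : R := if i < t.p1 then qqR R t.p2 i else 0

@[fun_prop] theorem DefF.qzR {f g : α → NN N} (hf : DefF N f) (hg : DefF N g) :
    DefF N (fun a => qzR R (f a) (g a)) := by
  unfold P129B.qzR; fun_prop

instance intl_qzR : Intl N (qzR R : NN N → NN N → R) := (DefF.lam (qzR R) (by fun_prop)).toIntl

theorem qzR_dense {c : NN N → R} (hc : DefF N c) (n : NN N) {η : R} (hη : 0 < η) :
    ∃ t : NN N, (∀ i, i < n → |c i - qzR R t i| ≤ η) ∧ ∀ i, n ≤ i → qzR R t i = 0 := by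
  obtain ⟨t, ht⟩ := qqR_dense hc n hη
  refine ⟨NN.pr n t, fun i hi => ?_, fun i hi => ?_⟩
  · simp only [qzR, NN.p1_pr, NN.p2_pr, if_pos hi]
    exact (ht i hi).1
  · simp only [qzR, NN.p1_pr, if_neg (not_lt.2 hi)]

/-! ### A dense sequence in the span of a sequence -/

variable {E : Type*} [AddCommGroup E] [Module K E] [Nm E R] [NA R K E] [Coded N E] [NS N R K E]

variable (K) in
/-- an enumeration of the rational combinations of a sequence -/
noncomputable def comb (a : NN N → E) (t : NN N) : E := isum (fun i => qqK K t.p2 i • a i) t.p1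

@[fun_prop] theorem DefF.comb {a : α → NN N → E} {f : α → NN N}
    (ha : DefF N (fun p : α × NN N => a p.1 p.2)) (hf : DefF N f) :
    DefF N (fun x => comb K (a x) (f x)) := by
  unfold P129B.comb; fun_prop

instance intl_comb (a : NN N → E) [Intl N a] : Intl N (comb K a) :=
  DefF.toIntl (f := fun t => comb K a t) (by fun_prop)

theorem comb_near {a : NN N → E} (ha : DefF N a) {b : NN N → K} (hb : DefF N b) (n : NN N) {ε : R}
    (hε : 0 < ε) : ∃ t : NN N, nm (isum (fun i => b i • a i) n - comb K a t) < ε := by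
  have h0 : 0 ≤ isum (fun i => nm (a i)) n := isum_nonneg (by fun_prop) fun i _ => nm_nonneg _
  obtain ⟨t, ht⟩ := qqK_dense hb n (div_pos hε (add_pos_of_nonneg_of_pos h0 one_pos))
  refine ⟨NN.pr n t, ?_⟩
  simp only [comb, NN.p1_pr, NN.p2_pr]
  rw [← isum_sub (by fun_prop) (by fun_prop)]
  refine ((nm_isum_le (by fun_prop) n).trans (isum_le_isum (g := fun i =>
    ε / (isum (fun i => nm (a i)) n + 1) * nm (a i)) (by fun_prop) (by fun_prop)
    fun i hi => ?_)).trans_lt ?_
  · rw [← sub_smul, nm_smul]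
    exact mul_le_mul_of_nonneg_right (ht i hi).1 (nm_nonneg _)
  · rw [← mul_isum _ (by fun_prop), div_mul_eq_mul_div, div_lt_iff₀ (by linarith)]
    exact mul_lt_mul_of_pos_left (lt_add_one _) hε

end Vale.Agent.P129B
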