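import Vale.Agent.P129B.Choice

/-!
# Internal pairing and enumeration of finite sequences
-/

namespace Vale.Agent.P129B

universe v

variable {N : Type v} [ZM N]

/-- the pairing function -/
noncomputable def NN.pr (a b : NN N) : NN N := (a + b) * (a + b) + a

@[fun_prop] theorem DefF.pr {α : Type*} [Coded N α] {f g : α → NN N} (hf : DefF N f)
    (hg : DefF N g) : DefF N (fun x => NN.pr (f x) (g x)) := by
  unfold NN.pr; fun_prop

theorem NN.pr_lt {a b c d : NN N} (h : a + b < c + d) : NN.pr a b < NN.pr c d := by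
  have h1 := NN.add_one_le_iff.2 h
  calc (a + b) * (a + b) + a < (a + b) * (a + b) + a + (a + b + b + 1) :=
        lt_add_of_pos_right _ (NN.lt_add_one_iff.2 (NN.zero_le' _))
    _ = (a + b + 1) * (a + b + 1) := by ring
    _ ≤ (c + d) * (c + d) + c := (mul_le_mul' h1 h1).trans le_self_add

theorem NN.pr_inj {a b c d : NN N} (h : NN.pr a b = NN.pr c d) : a = c ∧ b = d := by
  have h1 : a + b = c + d := le_antisymm (not_lt.1 fun k => (NN.pr_lt k).ne' h)
    (not_lt.1 fun k => (NN.pr_lt k).ne h)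
  have h2 : a = c := by
    unfold NN.pr at h
    rw [h1] at h
    exact add_left_cancel h
  exact ⟨h2, add_left_cancel (h2 ▸ h1 : a + b = a + d)⟩

theorem exists_unpr : ∃ p : NN N → NN N × NN N, Intl N p ∧ ∀ a b, p (NN.pr a b) = (a, b) := by
  obtain ⟨p, h1, h2⟩ := exists_intl_choice_on (N := N) ((0 : NN N), (0 : NN N))
    (P := fun t : NN N => ∃ q : NN N × NN N, NN.pr q.1 q.2 = t)
    (R := fun t (q : NN N × NN N) => NN.pr q.1 q.2 = t) (by fun_prop) (by fun_prop)
    fun t h => h.imp fun q hq => ⟨inferInstance, hq⟩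
  exact ⟨p, h1, fun a b => Prod.ext (NN.pr_inj (h2 _ ⟨(a, b), rfl⟩)).1
    (NN.pr_inj (h2 _ ⟨(a, b), rfl⟩)).2⟩

/-- the first component -/
noncomputable def NN.p1 (t : NN N) : NN N := (exists_unpr.choose t).1

/-- the second component -/
noncomputable def NN.p2 (t : NN N) : NN N := (exists_unpr.choose t).2

@[simp] theorem NN.p1_pr (a b : NN N) : (NN.pr a b).p1 = a :=
  congrArg Prod.fst (exists_unpr.choose_spec.2 a b)

@[simp] theorem NN.p2_pr (a b : NN N) : (NN.pr a b).p2 = b :=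
  congrArg Prod.snd (exists_unpr.choose_spec.2 a b)

@[fun_prop] theorem DefF.p1 {α : Type*} [Coded N α] {f : α → NN N} (hf : DefF N f) :
    DefF N (fun x => (f x).p1) :=
  have := (exists_unpr (N := N)).choose_spec.1
  ((DefF.ofIntl exists_unpr.choose).comp hf).fst

@[fun_prop] theorem DefF.p2 {α : Type*} [Coded N α] {f : α → NN N} (hf : DefF N f) :
    DefF N (fun x => (f x).p2) :=
  have := (exists_unpr (N := N)).choose_spec.1
  ((DefF.ofIntl exists_unpr.choose).comp hf).snd

instance intl_p1 : Intl N (NN.p1 : NN N → NN N) := (DefF.p1 DefF.id).toIntl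
instance intl_p2 : Intl N (NN.p2 : NN N → NN N) := (DefF.p2 DefF.id).toIntl

/-- **Pairing.** -/
theorem exists_pair : ∃ p1 p2 : NN N → NN N, Intl N p1 ∧ Intl N p2 ∧
    ∀ a b, ∃ t, p1 t = a ∧ p2 t = b :=
  ⟨NN.p1, NN.p2, inferInstance, inferInstance, fun a b => ⟨NN.pr a b, by simp, by simp⟩⟩

/-- the `i`-th entry of the sequence with code `t` -/
noncomputable def NN.en (t i : NN N) : NN N := (irec t (fun _ u => u.p2) i).p1

@[fun_prop] theorem DefF.en {α : Type*} [Coded N α] {f g : α → NN N} (hf : DefF N f)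
    (hg : DefF N g) : DefF N (fun x => NN.en (f x) (g x)) := by
  unfold NN.en; fun_prop

instance intl_en : Intl N (NN.en : NN N → NN N → NN N) :=
  (DefF.lam NN.en (by fun_prop)).toIntl

theorem NN.en_zero (t : NN N) : t.en 0 = t.p1 := by rw [NN.en, irec_zero]

theorem NN.en_succ (t i : NN N) : t.en (i + 1) = t.p2.en i :=
  congrArg NN.p1 (NN.ind (P := fun i => irec t (fun _ u => u.p2) (i + 1) =
    irec t.p2 (fun _ u => u.p2) i) (by fun_prop)
    (by rw [irec_succ (by fun_prop), irec_zero, irec_zero])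
    (fun i ih => by rw [irec_succ (by fun_prop), ih, irec_succ (by fun_prop)]) i)

/-- Every finite sequence has a code. -/
theorem NN.exists_en {s : NN N → NN N} (hs : DefF N s) (n : NN N) :
    ∃ t : NN N, ∀ i, i < n → t.en i = s i := by
  refine NN.ind (P := fun n => ∀ s : NN N → NN N, Intl N s → ∃ t : NN N, ∀ i, i < n → t.en i = s i)
    (by fun_prop) (fun _ _ => ⟨0, fun i hi => absurd hi (NN.not_lt_zero' i)⟩)
    (fun n ih s hs => ?_) n s hs.toIntl
  obtain ⟨t, ht⟩ := ih (fun i => s (i + 1)) (DefF.toIntl (by fun_prop))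
  refine ⟨NN.pr (s 0) t, fun i hi => ?_⟩
  rcases NN.zero_or_add_one i with rfl | ⟨j, rfl⟩
  · rw [NN.en_zero, NN.p1_pr]
  · rw [NN.en_succ, NN.p2_pr, ht j (lt_of_add_lt_add_right hi)]

/-- **Enumeration of the finite sequences.** -/
theorem exists_enn : ∃ e : NN N → NN N → NN N, Intl N e ∧
    ∀ (n : NN N) (s : NN N → NN N), Intl N s → ∃ t, ∀ i, i < n → e t i = s i :=
  ⟨NN.en, inferInstance, fun n s _ => NN.exists_en (DefF.ofIntl s) n⟩

/-- Finite choices of indices have codes. -/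
theorem NN.exists_en_of {R : NN N → NN N → Prop} (hR : DefF N (fun p : NN N × NN N => R p.1 p.2))
    (n : NN N) (h : ∀ i, i < n → ∃ j, R i j) : ∃ t : NN N, ∀ i, i < n → R i (t.en i) := by
  obtain ⟨s, h1, h2⟩ := exists_intl_choice_on (N := N) (0 : NN N) (P := fun i => i < n) (R := R)
    (by fun_prop) hR fun i hi => (h i hi).imp fun j hj => ⟨inferInstance, hj⟩
  obtain ⟨t, ht⟩ := NN.exists_en (DefF.ofIntl s) n
  exact ⟨t, fun i hi => ht i hi ▸ h2 i hi⟩

/-- the bounded set with code `t` -/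
def NN.enS (t : NN N) : Set (NN N) := {i | i < t.p1 ∧ t.p2.en i = 1}

@[fun_prop] theorem DefF.enS {α : Type*} [Coded N α] {f : α → NN N} (hf : DefF N f) :
    DefF N (fun x => (f x).enS) := by
  unfold NN.enS; fun_prop

instance intl_enS : Intl N (NN.enS : NN N → Set (NN N)) := (DefF.enS DefF.id).toIntl

theorem NN.enS_bdd (t : NN N) : ∀ i ∈ t.enS, i < t.p1 := fun _ h => h.1

/-- Every bounded internal set has a code. -/
theorem NN.exists_enS (T : Set (NN N)) [Intl N T] {b : NN N} (h : ∀ i ∈ T, i < b) :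
    ∃ t : NN N, t.enS = T := by
  obtain ⟨t, ht⟩ := NN.exists_en_of (R := fun i j => i ∈ T ↔ j = 1) (by fun_prop) b fun i _ =>
    (em (i ∈ T)).elim (fun c => ⟨1, iff_of_true c rfl⟩) fun c => ⟨0, iff_of_false c zero_ne_one⟩
  refine ⟨NN.pr b t, Set.ext fun i => ?_⟩
  simp only [NN.enS, NN.p1_pr, NN.p2_pr, Set.mem_ofPred_eq]
  exact ⟨fun c => (ht i c.1).2 c.2, fun c => ⟨h i c, (ht i (h i c)).1 c⟩⟩

end Vale.Agent.P129B
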