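import Vale.Agent.P129BL.Meas
import Vale.Agent.P129B.Erd

/-!
# The partition relation: the sentence and countable models
-/

set_option linter.all false

namespace Vale.Agent.P129BL

open Vale.Agent.P323.Z Vale.Agent.P323.Z.Fml Vale.Agent.P129Z.S Vale.Agent.P129B
  Vale.Agent.P129B.S

universe u v

section fml

variable {M : Type*} (E : M → M → Prop) {n : ℕ}

/-- finite sets -/
def finF (a : Fin n) : Fml n := ex (ex (ex (and (omegaF (up (up la))) (and (mem (up la) (up (up la)))
  (surjectionF la (up la) (up (up (up a))))))))

theorem sat_finF (a : Fin n) (v : Fin n → M) : (finF a).Sat E v ↔ IsFinite E (v a) := by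
  simp [finF, IsFinite, sat_omegaF]

/-- the partition relation -/
def erdF : Fml n :=
  ex (all (ex (and (subF la (up (up la))) (and (neg (finF la)) (all (all (imp
    (subF (up la) (up (up la))) (imp (subF la (up (up la))) (imp (finF (up la))
      (imp (ex (and (injectionF la (up (up la)) (up la)) (surjectionF la (up (up la)) (up la))))
        (iff (mem (up la) (up (up (up la)))) (mem la (up (up (up la)))))))))))))))

theorem sat_erdF (v : Fin n → M) : erdF.Sat E v ↔ HasErdos E := by
  simp only [erdF, HasErdos, sat_and, sat_all, sat_ex, sat_imp, sat_iff, sat_neg, sat_mem,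
    sat_subF, sat_finF, sat_injectionF, sat_surjectionF, Fin.snoc_castSucc, Fin.snoc_last]

end fml

/-- The partition relation is expressed by a sentence. -/
theorem exists_sentence_erdos : ∃ φ : LSet.BoundedFormula Empty 0,
    ∀ (M : Type u) (E : M → M → Prop), Sat E φ Fin.elim0 ↔ HasErdos E :=
  ⟨toBF erdF, fun _ E => (sat_toBF E _ _).trans (sat_erdF E _)⟩

theorem Elem.hasErdos {N : Type u} {M : Type v} {E' : N → N → Prop} {E : M → M → Prop}
    {j : N → M} (h : Elem E' E j) (a : HasErdos E) : HasErdos E' :=
  (sat_erdF E' Fin.elim0).1 ((h.sentence _ _ Fin.elim0).2 ((sat_erdF E _).2 a))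

end Vale.Agent.P129BL
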