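import Vale.Agent.P129Z.Stmt

/-!
# Measurable cardinals of a model of set theory
-/

namespace Vale.Agent.P129BL

open Vale.Agent.P323.Z Vale.Agent.P129Z.S

/-- `k` is a measurable cardinal of `(M, E)`: an ordinal (a transitive set of transitive sets) above
`ω` that carries a nonprincipal ultrafilter `U` closed under intersections of fewer than `k`
members. -/
def IsMeasurable {M : Type*} (E : M → M → Prop) (k : M) : Prop :=
  (∀ x, E x k → Sub E x k ∧ ∀ y, E y x → Sub E y x) ∧ (∀ w, IsOmega E w → E w k) ∧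
  ∃ U, (∀ A, E A U → Sub E A k) ∧ (∀ A B, E A U → Sub E A B → Sub E B k → E B U) ∧
    (∀ A B, (∀ x, E x k ↔ E x A ∨ E x B) → E A U ∨ E B U) ∧
    (∀ A x, E A U → ∃ y, E y A ∧ y ≠ x) ∧
    ∀ a f, E a k → IsFunction E f a U → ∃ B, E B U ∧ ∀ i A, PairMem E i A f → Sub E B A

end Vale.Agent.P129BL
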