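import Vale.Agent.P129B.DE
import Vale.Agent.P323.Z.Sentences
import Mathlib.ModelTheory.Skolem
import Mathlib.ModelTheory.Encoding

/-!
# Countable elementary submodels
-/

set_option linter.all false

namespace Vale.Agent.P129BL

open Vale.Agent.P323.Z Vale.Agent.P323.Z.Fml FirstOrder FirstOrder.Language Vale.Agent.P129B

universe u v

variable {N : Type u} {M : Type v} {E' : N → N → Prop} {E : M → M → Prop} {j : N → M}

/-- `j` is an elementary embedding -/
def Elem (E' : N → N → Prop) (E : M → M → Prop) (j : N → M) : Prop :=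
  ∀ (n : ℕ) (φ : Fml n) (v : Fin n → N), φ.Sat E' v ↔ φ.Sat E (j ∘ v)

theorem elem_of (h : ∀ (n : ℕ) (φ : Fml (n + 1)) (v : Fin n → N) (x : M),
    φ.Sat E (Fin.snoc (j ∘ v) x) → ∃ y, φ.Sat E (Fin.snoc (j ∘ v) (j y)))
    (hj : Function.Injective j) : Elem (fun a b => E (j a) (j b)) E j := by
  intro n φ
  induction φ with
  | bot => exact fun _ => Iff.rfl
  | eq a b => exact fun v => hj.eq_iff.symm
  | mem a b => exact fun v => Iff.rfl
  | imp φ ψ h1 h2 => exact fun v => imp_congr (h1 v) (h2 v)
  | all φ ih =>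
    intro v
    simp only [sat_all, ih, Fin.comp_snoc]
    refine ⟨fun H x => by_contra fun c => ?_, fun H y => H _⟩
    obtain ⟨y, hy⟩ := h _ φ.neg v x c
    exact hy (H y)

instance : Countable LSet.Symbols := by
  have : IsEmpty (Σ l, LSet.Functions l) := ⟨fun x => x.2.elim⟩
  have : Subsingleton (Σ l, LSet.Relations l) := ⟨fun ⟨_, a⟩ ⟨_, b⟩ => by cases a; cases b; rfl⟩
  unfold Language.Symbols
  infer_instance

/-- **Loewenheim-Skolem.** -/
theorem exists_elem (E : M → M → Prop) [Nonempty M] {s : Set M} (hs : s.Countable) :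
    ∃ (N : Type u) (j : N → M), Countable N ∧ s ⊆ Set.range j ∧
      Elem (fun a b => E (j a) (j b)) E j := by
  letI := memStructure E
  have : Countable (Σ l, (LSet.sum LSet.skolem₁).Functions l) :=
    Cardinal.mk_le_aleph0_iff.1 (card_functions_sum_skolem₁_le.trans
      (max_le le_rfl Cardinal.mk_le_aleph0))
  let S := Substructure.closure (LSet.sum LSet.skolem₁) s
  have : Countable S := hs.substructure_closure _
  let e := equivShrink.{u} S
  refine ⟨Shrink.{u} S, fun a => e.symm a, e.symm.injective.countable,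
    fun x hx => ⟨e ⟨x, Substructure.subset_closure hx⟩, by simp⟩,
    elem_of (fun n φ v x h => ?_) (Subtype.val_injective.comp e.symm.injective)⟩
  refine ⟨e ⟨_, S.fun_mem (LHom.sumInr.onFunction (show LSet.skolem₁.Functions n from toBF φ))
    (fun i => e.symm (v i)) fun i => (e.symm (v i)).2⟩, ?_⟩
  simp only [Equiv.symm_apply_apply]
  have d : (default : Empty → M) = Empty.elim := Subsingleton.elim _ _
  refine (sat_toBF E φ _).1 ?_
  have := Classical.epsilon_spec (p := fun a => (toBF φ).Realize default
    (Fin.snoc (fun i => (e.symm (v i) : M)) a)) ⟨x, d ▸ (sat_toBF E φ _).2 h⟩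
  unfold Vale.Agent.P323.Z.Sat
  rw [← d]
  exact this

theorem Elem.sentence (h : Elem E' E j) (φ : Fml 0) (v : Fin 0 → N) (w : Fin 0 → M) :
    φ.Sat E' v ↔ φ.Sat E w := by
  rw [h, Subsingleton.elim (j ∘ v) w]

theorem Elem.ac (h : Elem E' E j) (a : AC E) : AC E' :=
  (sat_acF E' Fin.elim0).1 ((h.sentence _ _ Fin.elim0).2 ((sat_acF E _).2 a))

theorem sat_sep {M : Type*} (E : M → M → Prop) {n : ℕ} (φ : LSet.BoundedFormula Empty (n + 1))
    (v : Fin n → M) (a : M) :
    (ex (all (iff (mem la (up la)) (and (mem la (up (up la)))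
      (rename (liftR fun i => up (up i)) (ofBF φ)))))).Sat E (Fin.snoc v a) ↔
    ∃ b, ∀ x, E x b ↔ E x a ∧ Sat E φ (Fin.snoc v x) := by
  simp only [sat_ex, sat_all, sat_iff, sat_and, sat_mem, sat_rename, snoc_comp_liftR, sat_ofBF,
    Fin.snoc_castSucc, Fin.snoc_last]
  simp only [Function.comp_def, Fin.snoc_castSucc]

theorem sat_rep {M : Type*} (E : M → M → Prop) {n : ℕ} (φ : LSet.BoundedFormula Empty (n + 2))
    (v : Fin n → M) (a : M) :
    (imp (all (imp (mem la (up la)) (ex (and (rename (liftR (liftR up)) (ofBF φ))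
      (all (imp (rename (liftR fun i => up (liftR up i)) (ofBF φ)) (eq la (up la))))))))
      (ex (all (iff (mem la (up la)) (ex (and (mem la (up (up (up la)))) (rename
        (Fin.snoc (α := fun _ => Fin (n + 4)) (liftR fun i => up (up (up i))) (up la))
          (ofBF φ)))))))).Sat E (Fin.snoc v a) ↔
    ((∀ x, E x a → ∃! y, Sat E φ (Fin.snoc (Fin.snoc v x : Fin (n + 1) → M) y)) →
      ∃ b, ∀ y, E y b ↔ ∃ x, E x a ∧ Sat E φ (Fin.snoc (Fin.snoc v x : Fin (n + 1) → M) y)) := by
  have e : ∀ x y : M, ((Fin.snoc (Fin.snoc (Fin.snoc v a : Fin (n + 1) → M) x : Fin (n + 2) → M) y :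
      Fin (n + 3) → M) ∘ fun i => up (liftR up i)) = Fin.snoc v x := fun x y => funext fun i => by
    refine Fin.lastCases ?_ (fun i => ?_) i <;> simp
  simp only [sat_ex, sat_all, sat_iff, sat_and, sat_mem, sat_imp, sat_eq, sat_rename, Fin.comp_snoc,
    snoc_comp_liftR, e, sat_ofBF, Fin.snoc_castSucc, Fin.snoc_last, ExistsUnique]
  simp only [Function.comp_def, Fin.snoc_castSucc]

theorem Elem.zf (h : Elem E' E j) (z : IsZFModel E) : IsZFModel E' where
  extensionality := by
    have := (h.sentence (all (all (imp (all (iff (mem la (up (up la))) (mem la (up la))))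
      (eq (up la) la)))) Fin.elim0 Fin.elim0).2
    simp only [sat_all, sat_iff, sat_mem, sat_imp, sat_eq, Fin.snoc_castSucc, Fin.snoc_last] at this
    exact this z.extensionality
  foundation := by
    have := (h.sentence (all (imp (ex (mem la (up la))) (ex (and (mem la (up la))
      (all (imp (mem la (up (up la))) (neg (mem la (up la))))))))) Fin.elim0 Fin.elim0).2
    simp only [sat_ex, sat_all, sat_and, sat_mem, sat_imp, sat_neg, Fin.snoc_castSucc,
      Fin.snoc_last] at this
    exact this z.foundation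
  pairing := by
    have := (h.sentence (all (all (ex (upairF la (up (up la)) (up la))))) Fin.elim0 Fin.elim0).2
    simp only [sat_ex, sat_all, sat_upairF, Fin.snoc_castSucc, Fin.snoc_last] at this
    exact this z.pairing
  union := by
    have := (h.sentence (all (ex (all (iff (mem la (up la)) (ex (and (mem la (up (up (up la))))
      (mem (up la) la))))))) Fin.elim0 Fin.elim0).2
    simp only [sat_ex, sat_all, sat_and, sat_mem, sat_iff, Fin.snoc_castSucc, Fin.snoc_last] at this
    exact this z.union
  powerSet := by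
    have := (h.sentence (all (ex (all (iff (mem la (up la)) (all (imp (mem la (up la))
      (mem la (up (up (up la)))))))))) Fin.elim0 Fin.elim0).2
    simp only [sat_ex, sat_all, sat_imp, sat_mem, sat_iff, Fin.snoc_castSucc, Fin.snoc_last] at this
    exact this z.powerSet
  infinity := by
    have := (h.sentence (ex (and (ex (and (mem la (up la)) (all (neg (mem la (up la))))))
      (all (imp (mem la (up la)) (ex (and (mem la (up (up la))) (all (iff (mem la (up la))
        (or (mem la (up (up la))) (eq la (up (up la)))))))))))) Fin.elim0 Fin.elim0).2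
    simp only [sat_ex, sat_all, sat_imp, sat_mem, sat_iff, sat_and, sat_or, sat_eq, sat_neg,
      Fin.snoc_castSucc, Fin.snoc_last] at this
    exact this z.infinity
  separation n φ v a := by
    rw [← sat_sep, h, Fin.comp_snoc, sat_sep]
    exact z.separation n φ _ _
  replacement n φ v a := by
    rw [← sat_rep, h, Fin.comp_snoc, sat_rep]
    exact z.replacement n φ _ _

/-- A countable model with the same sentences. -/
theorem exists_countable (z : IsZFModel E) (a : AC E) :
    ∃ (N : Type u) (_ : ZM N) (j : N → M), Countable N ∧ Elem ZM.E E j := by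
  obtain ⟨w, -⟩ := z.infinity
  have : Nonempty M := ⟨w⟩
  obtain ⟨N, j, h1, -, h2⟩ := exists_elem.{u} E Set.countable_empty
  exact ⟨N, ⟨_, h2.zf z, h2.ac a⟩, j, h1, h2⟩

end Vale.Agent.P129BL
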