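import Vale.Agent.P129BL.Defs
import Vale.Agent.P129BL.LS
import Vale.Agent.P129BF.Ult
import Vale.Agent.P129B.Choice

/-!
# Measurable cardinals: the formula, countable models, internal ultrafilters
-/

set_option linter.all false

namespace Vale.Agent.P129BL

open Vale.Agent.P323.Z Vale.Agent.P323.Z.Fml Vale.Agent.P129Z.S Vale.Agent.P129B

universe u v

section fml

variable {M : Type*} (E : M → M → Prop) {n : ℕ}

/-- inclusion -/
def subF (a b : Fin n) : Fml n := all (imp (mem la (up a)) (mem la (up b)))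

theorem sat_subF (a b : Fin n) (v : Fin n → M) : (subF a b).Sat E v ↔ Sub E (v a) (v b) := by
  simp [subF, P129Z.S.Sub]

/-- inductive sets -/
def indF (w : Fin n) : Fml n :=
  and (ex (and (mem la (up w)) (all (neg (mem la (up la)))))) (all (imp (mem la (up w))
    (ex (and (mem la (up (up w))) (all (iff (mem la (up la))
      (or (mem la (up (up la))) (eq la (up (up la))))))))))

theorem sat_indF (w : Fin n) (v : Fin n → M) : (indF w).Sat E v ↔ IsInductive E (v w) := by
  simp [indF, IsInductive]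

/-- the least inductive set -/
def omegaF (w : Fin n) : Fml n := and (indF w) (all (imp (indF la) (subF (up w) la)))

theorem sat_omegaF (w : Fin n) (v : Fin n → M) : (omegaF w).Sat E v ↔ IsOmega E (v w) := by
  simp [omegaF, IsOmega, sat_indF, sat_subF]

/-- measurable cardinals -/
def measF (k : Fin n) : Fml n :=
  and (all (imp (mem la (up k)) (and (subF la (up k)) (all (imp (mem la (up la)) (subF la (up la)))))))
    (and (all (imp (omegaF la) (mem la (up k)))) (ex
      (and (all (imp (mem la (up la)) (subF la (up (up k)))))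
      (and (all (all (imp (mem (up la) (up (up la))) (imp (subF (up la) la)
        (imp (subF la (up (up (up k)))) (mem la (up (up la))))))))
      (and (all (all (imp (all (iff (mem la (up (up (up (up k)))))
        (or (mem la (up (up la))) (mem la (up la)))))
        (or (mem (up la) (up (up la))) (mem la (up (up la)))))))
      (and (all (all (imp (mem (up la) (up (up la)))
        (ex (and (mem la (up (up la))) (neg (eq la (up la))))))))
      (all (all (imp (mem (up la) (up (up (up k)))) (imp (functionF la (up la) (up (up la)))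
        (ex (and (mem la (up (up (up la)))) (all (all (imp (pairMemF (up la) la (up (up (up la))))
          (subF (up (up la)) la))))))))))))))))

theorem sat_measF (k : Fin n) (v : Fin n → M) : (measF k).Sat E v ↔ IsMeasurable E (v k) := by
  simp only [measF, IsMeasurable, sat_and, sat_all, sat_ex, sat_imp, sat_iff, sat_or, sat_neg,
    sat_mem, sat_eq, sat_subF, sat_omegaF, sat_functionF, sat_pairMemF, Fin.snoc_castSucc,
    Fin.snoc_last, ne_eq]

end fml

theorem Elem.meas {N : Type u} {M : Type v} {E' : N → N → Prop} {E : M → M → Prop} {j : N → M}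
    (h : Elem E' E j) (a : ∃ k, IsMeasurable E k) : ∃ k, IsMeasurable E' k := by
  have := (h.sentence (ex (measF la)) Fin.elim0 Fin.elim0).2
  simp only [sat_ex, sat_measF, Fin.snoc_last] at this
  exact this a

variable {N : Type v} [ZM N]

theorem isOmega_omega : IsOmega ZM.E (omega N) := by
  refine ⟨⟨⟨_, ind_omega.1, not_mem_emp⟩, fun x hx => ⟨_, ind_omega.2 x hx, fun z => mem_ins⟩⟩,
    fun u ⟨⟨e, h1, h2⟩, h3⟩ x hx => mem_omega.1 hx u ⟨eq_emp h2 ▸ h1, fun y hy => ?_⟩⟩
  obtain ⟨s, a, b⟩ := h3 y hy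
  exact (ext fun z => (b z).trans mem_ins.symm : s = ins y y) ▸ a

theorem mem_code_el {k : N} {A : Set (El k)} (hA : Intl N A) {x : N} :
    x ∈ code N A ↔ ∃ h : x ∈ k, (⟨x, h⟩ : El k) ∈ A :=
  (mem_code_set hA).trans ⟨fun ⟨a, h, e⟩ => e ▸ ⟨a.2, h⟩, fun ⟨_, h⟩ => ⟨_, h, rfl⟩⟩

/-- A measurable cardinal carries an internal countably complete free ultrafilter. -/
theorem iult_of_meas {k : N} (h : IsMeasurable ZM.E k) : ∃ U : Set (Set (El k)), IUlt N U := by
  obtain ⟨-, h1, U, h2, h3, h4, h5, h6⟩ := h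
  have up : ∀ B : N, B ∈ U → ∀ A : Set (El k), Intl N A → (∀ x : El k, x.1 ∈ B → x ∈ A) →
      code N A ∈ U := fun B hB A hA e =>
    h3 B _ hB (fun x hx => (mem_code_el hA).2 ⟨h2 B hB x hx, e _ hx⟩)
      fun x hx => ((mem_code_el hA).1 hx).1
  have iI : ∀ A : NN N → Set (El k), Intl N A → (∀ n, code N (A n) ∈ U) →
      Intl N (⋂ n, A n) ∧ code N (⋂ n, A n) ∈ U := fun A hA a => by
    have e : ∀ x y : N, PairMem ZM.E x y (code N A) ↔ ∃ n : NN N, n.val = x ∧ code N (A n) = y :=
      fun x y => by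
        rw [pairMem_iff, code_fun, mem_code_set (intl_fun_graph.1 hA)]
        exact ⟨fun ⟨p, b, c⟩ => ⟨p.1, (op_inj.1 c).1, b ▸ (op_inj.1 c).2⟩,
          fun ⟨n, b, c⟩ => ⟨(n, A n), rfl, b ▸ c ▸ rfl⟩⟩
    obtain ⟨B, b1, b2⟩ := h6 _ (code N A) (h1 _ isOmega_omega) ⟨fun p hp => by
      obtain ⟨q, b, rfl⟩ := (mem_code_set (intl_fun_graph.1 hA)).1 hp
      exact ⟨_, _, q.1.prop, b ▸ a q.1, isOPair_iff.2 rfl⟩, fun x hx =>
      ⟨_, (e _ _).2 ⟨.mk x hx, rfl, rfl⟩, fun y hy => by
        obtain ⟨n, rfl, rfl⟩ := (e _ _).1 hy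
        rfl⟩⟩
    have hI : Intl N (⋂ n, A n) := by
      rw [← Set.setOf_mem_eq (s := ⋂ n, A n)]
      simp only [Set.mem_iInter]
      exact intl_setOfT (by fun_prop)
    exact ⟨hI, up B b1 _ hI fun x hx => Set.mem_iInter.2 fun n =>
      ((mem_code_el inferInstance).1 (b2 _ _ ((e _ _).2 ⟨n, rfl, rfl⟩) _ hx)).2⟩
  refine ⟨{A | Intl N A ∧ code N A ∈ U}, intl_setOf (by fun_prop),
    fun A a B b c => ⟨b, up _ a.2 B b fun x hx => c ((mem_code_el a.1).1 hx).2⟩,
    fun A a B b => ?_, fun A a b => iI A a fun n => (b n).2, fun A a => ?_, fun a => ?_,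
    fun x a => ?_⟩
  · classical
    have := a.1
    have := b.1
    have := iI (fun n => if n = 0 then A else B) (DefF.toIntl (by fun_prop)) fun n => by
      split_ifs
      exacts [a.2, b.2]
    refine ⟨inferInstance, up _ this.2 _ inferInstance fun x hx => ?_⟩
    have c := Set.mem_iInter.1 ((mem_code_el this.1).1 hx).2
    have c0 := c 0
    have c1 := c 1
    simp only [if_true] at c0
    simp only [if_neg (one_ne_zero : (1 : NN N) ≠ 0)] at c1
    exact ⟨c0, c1⟩
  · have b : Intl N Aᶜ := intl_setOfT (P := fun x => ¬ x ∈ A) (by fun_prop)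
    refine (h4 _ _ fun x => ?_).imp (fun c => ⟨a, c⟩) fun c => ⟨b, c⟩
    refine ⟨fun hx => (em ((⟨x, hx⟩ : El k) ∈ A)).imp (fun c => (mem_code_el a).2 ⟨hx, c⟩)
      fun c => (mem_code_el b).2 ⟨hx, c⟩, ?_⟩
    rintro (c | c)
    exacts [((mem_code_el a).1 c).1, ((mem_code_el b).1 c).1]
  · obtain ⟨y, b, -⟩ := h5 _ k a.2
    exact ((mem_code_el a.1).1 b).2
  · obtain ⟨y, b, c⟩ := h5 _ x.1 a.2
    exact c (congrArg Subtype.val ((mem_code_el a.1).1 b).2)

/-- From any model with a measurable cardinal to a countable one with an internal ultrafilter. -/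
theorem exists_countable_iult {M : Type v} {E : M → M → Prop} (h : IsZFCModel E)
    (a : ∃ k, IsMeasurable E k) :
    ∃ (N : Type u) (_ : ZM N), Countable N ∧ ∃ (k : N) (U : Set (Set (El k))), IUlt N U := by
  obtain ⟨N, _, j, h1, h2⟩ := exists_countable.{u} h.1 h.2
  obtain ⟨k, hk⟩ := h2.meas a
  exact ⟨N, _, h1, k, iult_of_meas hk⟩

end Vale.Agent.P129BL
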