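import Vale.Agent.P129BL.Dense
import Vale.Agent.P129BM.Spec

/-!
# The row on dense families
-/

namespace Vale.Agent.P129B

universe v

variable {N : Type v} [ZM N]
  {R : Type*} [Field R] [LinearOrder R] [IsStrictOrderedRing R] [Coded N R] [RF N R]
  {K : Type*} [Field K] [Algebra R K] [Nm K R] [KA R K] [Coded N K] [KF N R K]

theorem qqk_row : QQK N R K :=
  ⟨qqK K, inferInstance, fun n c _ _ hη => qqK_dense (DefF.ofIntl c) n hη⟩

end Vale.Agent.P129B
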